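import Vale.Agent.P181.GN.Defs

set_option autoImplicit false

/-!
# P181, line GN, [Q4s]: the letter shift `j → j + 1`
-/

open MvPolynomial

namespace Vale.Agent.P181.GN.H182

variable {k : ℕ}

/-- The shift of a letter. -/
def sh (p : Lt k) : Lt k := (p.1 + 1, p.2)

lemma sh_inj : Function.Injective (sh (k := k)) := by
  rintro ⟨a, b⟩ ⟨c, d⟩ h
  simp only [sh, Prod.mk.injEq, add_left_inj] at h
  exact Prod.ext h.1 h.2

lemma EU_ren (r i : Fin k) (f : Po k) : EU r i (rename sh f) = rename sh (EU r i f) := by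
  induction f using MvPolynomial.induction_on with
  | C a => rw [rename_C, derivation_C, map_zero]
  | add p q hp hq => simp only [map_add, hp, hq]
  | mul_X p n hp =>
    rw [map_mul, Derivation.leibniz, hp, Derivation.leibniz, map_add, rename_X]
    have h1 : EU r i (X (sh n) : Po k) = rename sh (EU r i (X n : Po k)) := by
      simp only [EU, mkDerivation_X]
      rw [map_smul, rename_X]
      rfl
    rw [h1, smul_eq_mul, smul_eq_mul, smul_eq_mul, smul_eq_mul, map_mul, map_mul, rename_X]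

lemma ln_map (v : Lt k →₀ ℕ) : ln (Finsupp.mapDomain sh v) = ln v := by
  rw [ln, ln, Finsupp.sum_mapDomain_index_inj sh_inj]

lemma us_map (v : Lt k →₀ ℕ) (i : Fin k) : us (Finsupp.mapDomain sh v) i = us v i := by
  rw [us, us, Finsupp.sum_mapDomain_index_inj sh_inj]
  rfl

lemma xs_map (v : Lt k →₀ ℕ) : xs (Finsupp.mapDomain sh v) = xs v + ln v := by
  rw [xs, xs, ln, Finsupp.sum_mapDomain_index_inj sh_inj]
  simp only [Finsupp.sum, sh]
  rw [← Finset.sum_add_distrib]
  exact Finset.sum_congr rfl fun p _ => by ring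

lemma supp_map (v : Lt k →₀ ℕ) (p : Lt k) (hp : p ∈ (Finsupp.mapDomain sh v).support) :
    ∃ q ∈ v.support, sh q = p := by
  classical
  have := Finsupp.mapDomain_support (f := sh) (s := v) hp
  simpa using this

lemma sz_sh (q : Lt k) : sz (sh q) = sz q + 1 := by
  simp only [sz, sh]
  ring

/-- A monomial of the shifted polynomial. -/
lemma coeff_ren {f : Po k} {v : Lt k →₀ ℕ} (h : coeff v (rename sh f) ≠ 0) :
    ∃ u, Finsupp.mapDomain sh u = v ∧ coeff u f ≠ 0 :=
  coeff_rename_ne_zero sh f v h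

theorem q4s (h : FD) : Q4s := by
  intro k y m0 tau
  have hfd : FiniteDimensional ℂ (UH (gBB tau y m0)) := by
    have h1 := (h k y m0 tau 0).1
    refine Submodule.finiteDimensional_of_le (S₂ := UH (gPP tau y m0)) ?_
    rintro f ⟨hf1, hf2⟩
    exact ⟨fun v hv => ⟨fun p hp => ((hf1 v hv).1 p hp).1, (hf1 v hv).2⟩, hf2⟩
  -- the image of the shift
  let S : Submodule ℂ (Po k) := (UH (gTT tau y m0)).map (rename (sh (k := k))).toLinearMap
  have hS : Module.finrank ℂ S = Module.finrank ℂ (UH (gTT tau y m0)) :=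
    (Submodule.equivMapOfInjective (rename (sh (k := k))).toLinearMap
      (rename_injective _ sh_inj) (UH (gTT tau y m0))).finrank_eq.symm
  have hSle : S ≤ UH (gBB tau y m0) := by
    rintro _ ⟨f, ⟨hf1, hf2⟩, rfl⟩
    refine ⟨fun v hv => ?_, fun r i hri => ?_⟩
    · obtain ⟨u, rfl, hu⟩ := coeff_ren hv
      obtain ⟨h1, h2, h3⟩ := hf1 u hu
      refine ⟨fun p hp => ?_, ?_, fun i => by rw [us_map]; exact h3 i⟩
      · obtain ⟨q, hq, rfl⟩ := supp_map u p hp
        have := h1 q hq
        rw [sz_sh]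
        exact ⟨by omega, fun h => by omega⟩
      · rw [xs_map, ln_map]
        omega
    · change EU r i (rename sh f) = 0
      rw [EU_ren, hf2 r i hri, map_zero]
  have hLle : UH (gSL tau y m0) ≤ UH (gBB tau y m0) := by
    rintro f ⟨hf1, hf2⟩
    exact ⟨fun v hv => (hf1 v hv).1, hf2⟩
  have hdis : Disjoint S (UH (gSL tau y m0)) := by
    rw [Submodule.disjoint_def]
    rintro _ ⟨f, _, rfl⟩ ⟨hf1, _⟩
    ext v
    by_contra hv
    rw [coeff_zero] at hv
    obtain ⟨_, p, hp, hp0⟩ := hf1 v hv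
    obtain ⟨u, rfl, _⟩ := coeff_ren hv
    obtain ⟨q, _, rfl⟩ := supp_map u p hp
    exact absurd hp0 (Nat.succ_ne_zero _)
  rw [← hS]
  have := Submodule.finiteDimensional_of_le hSle
  have := Submodule.finiteDimensional_of_le hLle
  have h2 := Submodule.finrank_sup_add_finrank_inf_eq S (UH (gSL tau y m0))
  rw [hdis.eq_bot, finrank_bot, add_zero] at h2
  rw [← h2]
  exact Submodule.finrank_mono (sup_le hSle hLle)

end Vale.Agent.P181.GN.H182
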